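import Mathlib

/-!
A Cauchy-Schwarz bound for a piece of a convolution kernel whose key is read off both from the
kernel variable and from the output.
-/

namespace Vale.Agent.P165.Trees

open Finset

/-- A piece `R` of pairs `(g, w)`: the key is a function of the output `out g w` and of `g`,
and every fibre over a pair (input, key) has kernel mass at most `M`. -/
theorem piece_sq_le {α β γ κ : Type*} [DecidableEq α] [DecidableEq β] [DecidableEq γ]
    [DecidableEq κ] (R : Finset (α × β)) (out : α → β → γ) (keyX : γ → κ) (keyG : α → κ)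
    (hkey : ∀ r ∈ R, keyX (out r.1 r.2) = keyG r.1)
    (hinj : ∀ r ∈ R, ∀ r' ∈ R, r.1 = r'.1 → out r.1 r.2 = out r'.1 r'.2 → r = r')
    (τ : α → ℝ) (hτ : ∀ a, 0 ≤ τ a) (f : β → ℝ) (h : γ → ℝ) {C M : ℝ} (hM : 0 ≤ M)
    (hA : ∑ a ∈ R.image Prod.fst, τ a ≤ C)
    (hCl : ∀ w P, ∑ r ∈ R with r.2 = w ∧ keyG r.1 = P, τ r.1 ≤ M) :
    (∑ r ∈ R, τ r.1 * f r.2 * h (out r.1 r.2)) ^ 2 ≤
      C * M * (∑ w ∈ R.image Prod.snd, f w ^ 2) *
        (∑ x ∈ R.image (fun r => out r.1 r.2), h x ^ 2) := by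
  set o : α × β → γ := fun r => out r.1 r.2 with ho
  set X := R.image o with hX
  set F : γ → ℝ := fun x => ∑ r ∈ R with o r = x, τ r.1 * f r.2 with hF
  set A : κ → ℝ := fun P => ∑ a ∈ R.image Prod.fst with keyG a = P, τ a with hA'
  set B : κ → ℝ := fun P => ∑ r ∈ R with keyG r.1 = P, τ r.1 * f r.2 ^ 2 with hB
  have h1 : ∑ r ∈ R, τ r.1 * f r.2 * h (o r) = ∑ x ∈ X, F x * h x := by
    rw [← sum_fiberwise_of_maps_to (g := o) (t := X) fun r hr => mem_image_of_mem o hr]
    refine sum_congr rfl fun x _ => ?_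
    rw [hF, sum_mul]
    exact sum_congr rfl fun r hr => by rw [(mem_filter.1 hr).2]
  have h2 : ∀ x ∈ X, F x ^ 2 ≤
      A (keyX x) * ∑ r ∈ R with o r = x, τ r.1 * f r.2 ^ 2 := by
    intro x _
    refine (sum_sq_le_sum_mul_sum_of_sq_le_mul _ (f := fun r => τ r.1)
      (g := fun r => τ r.1 * f r.2 ^ 2) (fun r _ => hτ _)
      (fun r _ => mul_nonneg (hτ _) (sq_nonneg _)) (fun r _ => by nlinarith [hτ r.1])).trans ?_
    refine mul_le_mul_of_nonneg_right ?_
      (sum_nonneg fun r _ => mul_nonneg (hτ _) (sq_nonneg _))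
    have hfst : Set.InjOn (Prod.fst : α × β → α) (R.filter fun r => o r = x : Finset (α × β)) := by
      intro r hr r' hr' he
      simp only [coe_filter, Set.mem_setOf_eq] at hr hr'
      exact hinj r hr.1 r' hr'.1 he (hr.2.trans hr'.2.symm)
    rw [← sum_image (f := τ) hfst]
    refine sum_le_sum_of_subset_of_nonneg (fun a ha => ?_) fun a _ _ => hτ a
    obtain ⟨r, hr, rfl⟩ := mem_image.1 ha
    obtain ⟨hrR, hox⟩ := mem_filter.1 hr
    exact mem_filter.2 ⟨mem_image_of_mem _ hrR, by rw [← hox]; exact (hkey r hrR).symm⟩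
  have h3 : ∀ P, B P ≤ M * ∑ w ∈ R.image Prod.snd, f w ^ 2 := by
    intro P
    show ∑ r ∈ R with keyG r.1 = P, τ r.1 * f r.2 ^ 2 ≤ _
    rw [mul_sum, ← sum_fiberwise_of_maps_to (g := Prod.snd) (t := R.image Prod.snd)
      fun r hr => mem_image_of_mem _ (mem_filter.1 hr).1]
    refine sum_le_sum fun w _ => ?_
    calc ∑ r ∈ (R.filter fun r => keyG r.1 = P) with r.2 = w, τ r.1 * f r.2 ^ 2
        = (∑ r ∈ R with r.2 = w ∧ keyG r.1 = P, τ r.1) * f w ^ 2 := by
          rw [sum_mul, filter_filter]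
          refine sum_congr (filter_congr fun r _ => and_comm) fun r hr => ?_
          rw [(mem_filter.1 hr).2.1]
      _ ≤ M * f w ^ 2 := mul_le_mul_of_nonneg_right (hCl w P) (sq_nonneg _)
  have hF2 : ∑ x ∈ X, F x ^ 2 ≤ C * (M * ∑ w ∈ R.image Prod.snd, f w ^ 2) := by
    calc ∑ x ∈ X, F x ^ 2
        ≤ ∑ x ∈ X, A (keyX x) * ∑ r ∈ R with o r = x, τ r.1 * f r.2 ^ 2 := sum_le_sum h2
      _ = ∑ r ∈ R, A (keyG r.1) * (τ r.1 * f r.2 ^ 2) := by
          rw [← sum_fiberwise_of_maps_to (g := o) (t := X) fun r hr => mem_image_of_mem o hr]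
          refine sum_congr rfl fun x _ => ?_
          rw [mul_sum]
          refine sum_congr rfl fun r hr => ?_
          obtain ⟨hrR, hox⟩ := mem_filter.1 hr
          rw [← hox, show keyX (o r) = keyG r.1 from hkey r hrR]
      _ = ∑ P ∈ (R.image Prod.fst).image keyG, A P * B P := by
          rw [← sum_fiberwise_of_maps_to (g := fun r => keyG r.1)
            fun r hr => mem_image_of_mem keyG (mem_image_of_mem (Prod.fst : α × β → α) hr)]
          refine sum_congr rfl fun P _ => ?_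
          show _ = A P * ∑ r ∈ R with keyG r.1 = P, τ r.1 * f r.2 ^ 2
          rw [mul_sum]
          exact sum_congr rfl fun r hr => by rw [(mem_filter.1 hr).2]
      _ ≤ ∑ P ∈ (R.image Prod.fst).image keyG,
            A P * (M * ∑ w ∈ R.image Prod.snd, f w ^ 2) :=
          sum_le_sum fun P _ => mul_le_mul_of_nonneg_left (h3 P) (sum_nonneg fun a _ => hτ a)
      _ = (∑ a ∈ R.image Prod.fst, τ a) * (M * ∑ w ∈ R.image Prod.snd, f w ^ 2) := by
          rw [← sum_mul, sum_fiberwise_of_maps_to fun a ha => mem_image_of_mem keyG ha]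
      _ ≤ _ := mul_le_mul_of_nonneg_right hA (by positivity)
  show (∑ r ∈ R, τ r.1 * f r.2 * h (o r)) ^ 2 ≤ _
  rw [h1]
  exact (sum_mul_sq_le_sq_mul_sq X F h).trans
    ((mul_le_mul_of_nonneg_right hF2 (sum_nonneg fun x _ => sq_nonneg _)).trans_eq (by ring))

end Vale.Agent.P165.Trees
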