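import Mathlib

/-!
Absorbing a sprinkled kernel: if `L ≤ K + c * K A L` entrywise on a finite vertex set, `K` has
`ℓ²` norm at most `M`, `A` has row and column sums at most `d` and `c * M * d < 1`, then the norm
of `L` is at most `M / (1 - c * M * d)`.
-/

namespace Vale.Agent.P165.Trees

open Finset

variable {ι : Type*} {T : Finset ι}

/-- The kernel `K` applied to `f` on the finite set `T`. -/
def app (T : Finset ι) (K : ι → ι → ℝ) (f : ι → ℝ) (x : ι) : ℝ := ∑ y ∈ T, K x y * f y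

theorem app_nonneg {K : ι → ι → ℝ} (hK : ∀ x y, 0 ≤ K x y) {f : ι → ℝ} (hf : ∀ y, 0 ≤ f y)
    (x : ι) : 0 ≤ app T K f x :=
  sum_nonneg fun y _ => mul_nonneg (hK x y) (hf y)

/-- Schur test. -/
theorem schur_sq_le (A : ι → ι → ℝ) (hA : ∀ x y, 0 ≤ A x y) {d : ℝ} (hd : 0 ≤ d)
    (hrow : ∀ x, ∑ y ∈ T, A x y ≤ d) (hcol : ∀ y, ∑ x ∈ T, A x y ≤ d) (f : ι → ℝ) :
    ∑ x ∈ T, app T A f x ^ 2 ≤ d ^ 2 * ∑ x ∈ T, f x ^ 2 := by
  calc ∑ x ∈ T, app T A f x ^ 2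
      ≤ ∑ x ∈ T, d * ∑ y ∈ T, A x y * f y ^ 2 := sum_le_sum fun x _ =>
        (sum_sq_le_sum_mul_sum_of_sq_le_mul T (f := fun y => A x y)
          (g := fun y => A x y * f y ^ 2) (fun y _ => hA x y)
          (fun y _ => mul_nonneg (hA x y) (sq_nonneg _)) fun y _ => by nlinarith [hA x y]).trans
        (mul_le_mul_of_nonneg_right (hrow x)
          (sum_nonneg fun y _ => mul_nonneg (hA x y) (sq_nonneg _)))
    _ = d * ∑ y ∈ T, (∑ x ∈ T, A x y) * f y ^ 2 := by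
        rw [← mul_sum, sum_comm]; simp only [sum_mul]
    _ ≤ d * ∑ y ∈ T, d * f y ^ 2 := mul_le_mul_of_nonneg_left
        (sum_le_sum fun y _ => mul_le_mul_of_nonneg_right (hcol y) (sq_nonneg _)) hd
    _ = d ^ 2 * ∑ x ∈ T, f x ^ 2 := by rw [← mul_sum]; ring

/-- A bilinear bound gives a bound on the image. -/
theorem app_sq_le_of_pairing (K : ι → ι → ℝ) (hK : ∀ x y, 0 ≤ K x y) {M : ℝ}
    (h : ∀ f g : ι → ℝ, (∀ y, 0 ≤ f y) → (∀ y, 0 ≤ g y) →
      (∑ x ∈ T, g x * app T K f x) ^ 2 ≤ M ^ 2 * (∑ x ∈ T, f x ^ 2) * ∑ x ∈ T, g x ^ 2)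
    (f : ι → ℝ) (hf : ∀ y, 0 ≤ f y) :
    ∑ x ∈ T, app T K f x ^ 2 ≤ M ^ 2 * ∑ x ∈ T, f x ^ 2 := by
  have h0 := h f (app T K f) hf (app_nonneg hK hf)
  simp only [← sq] at h0
  rcases (sum_nonneg fun x _ => sq_nonneg (app T K f x)).eq_or_lt with he | hl
  · rw [← he]; positivity
  · exact le_of_mul_le_mul_right (by rwa [← sq]) hl

/-- Absorption of the sprinkled term. -/
theorem sprinkle_le (K L A : ι → ι → ℝ) (hK : ∀ x y, 0 ≤ K x y) (hL : ∀ x y, 0 ≤ L x y)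
    (hA : ∀ x y, 0 ≤ A x y) {c d M : ℝ} (hc : 0 ≤ c) (hd : 0 ≤ d) (hM : 0 ≤ M)
    (hcm : c * M * d < 1)
    (hrow : ∀ x, ∑ y ∈ T, A x y ≤ d) (hcol : ∀ y, ∑ x ∈ T, A x y ≤ d)
    (hKM : ∀ f : ι → ℝ, (∀ y, 0 ≤ f y) →
      ∑ x ∈ T, app T K f x ^ 2 ≤ M ^ 2 * ∑ x ∈ T, f x ^ 2)
    (hle : ∀ x ∈ T, ∀ y ∈ T, L x y ≤ K x y + c * app T K (app T A fun b => L b y) x)
    (f : ι → ℝ) (hf : ∀ y, 0 ≤ f y) :
    ∑ x ∈ T, app T L f x ^ 2 ≤ (M / (1 - c * M * d)) ^ 2 * ∑ x ∈ T, f x ^ 2 := by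
  set u := app T L f with hu
  have hu0 : ∀ x, 0 ≤ u x := app_nonneg hL hf
  set v := app T K (app T A u) with hv
  have hpt : ∀ x ∈ T, u x ≤ app T K f x + c * v x := fun x hx => by
    calc u x ≤ ∑ y ∈ T, (K x y + c * app T K (app T A fun b => L b y) x) * f y :=
          sum_le_sum fun y hy => mul_le_mul_of_nonneg_right (hle x hx y hy) (hf y)
      _ = app T K f x + c * v x := by
          simp only [app, hv, hu, add_mul, sum_add_distrib, mul_sum, sum_mul]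
          congr 1
          rw [sum_comm]
          refine sum_congr rfl fun a _ => ?_
          rw [sum_comm]
          exact sum_congr rfl fun b _ => sum_congr rfl fun y _ => by ring
  set U := Real.sqrt (∑ x ∈ T, u x ^ 2) with hU
  set F := Real.sqrt (∑ x ∈ T, f x ^ 2) with hF
  have hU2 : U ^ 2 = ∑ x ∈ T, u x ^ 2 := Real.sq_sqrt (sum_nonneg fun x _ => sq_nonneg _)
  have hF2 : F ^ 2 = ∑ x ∈ T, f x ^ 2 := Real.sq_sqrt (sum_nonneg fun x _ => sq_nonneg _)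
  have b1 : ∑ x ∈ T, u x * app T K f x ≤ U * (M * F) := by
    refine (Real.sum_mul_le_sqrt_mul_sqrt T u (app T K f)).trans ?_
    refine mul_le_mul_of_nonneg_left ?_ (Real.sqrt_nonneg _)
    rw [Real.sqrt_le_iff, mul_pow, hF2]
    exact ⟨by positivity, hKM f hf⟩
  have b2 : ∑ x ∈ T, u x * v x ≤ U * (M * (d * U)) := by
    refine (Real.sum_mul_le_sqrt_mul_sqrt T u v).trans ?_
    refine mul_le_mul_of_nonneg_left ?_ (Real.sqrt_nonneg _)
    rw [Real.sqrt_le_iff, mul_pow, mul_pow, hU2]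
    refine ⟨by positivity, (hKM _ (app_nonneg hA hu0)).trans ?_⟩
    exact mul_le_mul_of_nonneg_left (schur_sq_le A hA hd hrow hcol u) (sq_nonneg _)
  have key : U ^ 2 ≤ U * (M * F) + c * (U * (M * (d * U))) := by
    rw [hU2]
    calc ∑ x ∈ T, u x ^ 2 ≤ ∑ x ∈ T, u x * (app T K f x + c * v x) :=
          sum_le_sum fun x hx => by
            rw [sq]; exact mul_le_mul_of_nonneg_left (hpt x hx) (hu0 x)
      _ = ∑ x ∈ T, u x * app T K f x + c * ∑ x ∈ T, u x * v x := by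
          rw [mul_sum, ← sum_add_distrib]; exact sum_congr rfl fun x _ => by ring
      _ ≤ _ := add_le_add b1 (mul_le_mul_of_nonneg_left b2 hc)
  have h1 : U * (1 - c * M * d) ≤ M * F := by
    rcases (Real.sqrt_nonneg (∑ x ∈ T, u x ^ 2)).eq_or_lt with he | hl
    · rw [← hU] at he; rw [← he, zero_mul]; positivity
    · nlinarith
  have h2 : U ≤ M / (1 - c * M * d) * F := by
    rw [div_mul_eq_mul_div, le_div_iff₀ (by linarith)]
    exact h1
  calc ∑ x ∈ T, u x ^ 2 = U ^ 2 := hU2.symm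
    _ ≤ (M / (1 - c * M * d) * F) ^ 2 := pow_le_pow_left₀ (Real.sqrt_nonneg _) h2 2
    _ = _ := by rw [mul_pow, hF2]

end Vale.Agent.P165.Trees
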